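import Vale.Agent.P153.K2.Stm
import Vale.Agent.P153.Wick.Stm

/-! P153, module K2. -/

open Set

noncomputable section
namespace Vale.Agent.P153.K2

theorem lbv_tot (hc : S_card) {a : V →₀ ℝ} {x : V} {N : ℕ} (hN : 1 ≤ N) (ha : Wick.B1 a x N) :
    |tot a| ≤ 9 * (N : ℝ) ^ 2 := by
  have h1 : a.support.card ≤ (2 * N + 1) ^ 2 := (Finset.card_le_card fun y hy =>
    (hex_finite x N).mem_toFinset.2 (ha.2 y (Finsupp.mem_support_iff.1 hy))).trans (hc x N).2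
  have h2 : (a.support.card : ℝ) ≤ (2 * N + 1) ^ 2 := by exact_mod_cast h1
  have h3 : (1 : ℝ) ≤ N := by exact_mod_cast hN
  refine (Finset.abs_sum_le_sum_abs _ _).trans
    ((Finset.sum_le_card_nsmul _ _ 1 fun y _ => ha.1 y).trans ?_)
  rw [nsmul_eq_mul, mul_one]
  nlinarith

theorem lbv_sq {S : Set Cfg} {X : Cfg → ℝ} {C t N : ℝ}
    (h : Ex S (fun H => X H ^ 4) ≤ C * N ^ 8) (ht : |t| ≤ 9 * N ^ 2) :
    √(Ex S fun H => (X H - t) ^ 2) ≤ (2 * |C| + 20) * N ^ 2 := by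
  have h1 := Ex_sq_le S fun H => X H ^ 2
  simp only [← pow_mul] at h1
  have h2 : Ex S (fun H => X H ^ 2) ≤ (|C| + 1) * N ^ 4 := by
    refine (abs_le_of_sq_le_sq' ((h1.trans h).trans ?_) (by positivity)).2
    rw [mul_pow, ← pow_mul]
    exact mul_le_mul_of_nonneg_right (by nlinarith [le_abs_self C, abs_nonneg C]) (by positivity)
  have h3 : t ^ 2 ≤ 81 * N ^ 4 := by
    have := pow_le_pow_left₀ (abs_nonneg t) ht 2
    rw [sq_abs] at this
    linarith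
  have h4 : Ex S (fun H => (X H - t) ^ 2) ≤ Ex S fun H => 2 * X H ^ 2 + 162 * N ^ 4 :=
    Ex_mono fun H _ => by nlinarith [sq_nonneg (X H + t)]
  have h5 : Ex S (fun _ => 162 * N ^ 4) ≤ 162 * N ^ 4 := Ex_le' (by positivity) fun _ _ => le_rfl
  rw [Ex_add, Ex_mul_left] at h4
  refine Real.sqrt_le_iff.2 ⟨by positivity, ?_⟩
  have h6 : 2 * (|C| + 1) + 162 ≤ (2 * |C| + 20) ^ 2 := by nlinarith [abs_nonneg C]
  have h7 := mul_le_mul_of_nonneg_right h6 (show 0 ≤ N ^ 4 by positivity)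
  rw [mul_pow, ← pow_mul]
  exact h4.trans (le_trans (by linarith) h7)

theorem l_bv (hb : BVR) (hm : MB) (hc : S_card) : Wick.L_bv := by
  intro L ε hε
  obtain ⟨C, hC⟩ := hm
  obtain ⟨M, hM⟩ := hb (ε / (2 * |C| + 20)) (by positivity)
  refine ⟨M, fun F S W O x n N R c a G hF hN hn hR _ hx ha hW cW cW' hWR hne hfar hO cO hOR hG => ?_⟩
  have ha' : Wick.B1 a x N := ⟨ha.1, fun y hy => hex_mono hn (ha.2 y hy)⟩
  have hWF : W ⊆ Fᶜ := by
    rcases hW with ⟨rfl, -⟩ | ⟨rfl, -⟩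
    exacts [inter_subset_left, sdiff_subset]
  have hroom : room W x x R ⊆ F := fun y hy => by
    by_contra h
    exact (comp_subset hy).2 (hWR ⟨h, (comp_subset hy).1⟩)
  have hR' : Room F W (hex x n) x x N R :=
    ⟨hF.1, hF.2, cW, disjoint_left.2 fun y hy => hWF hy, hN, hne, hfar, self_mem_hex x n,
      cn_hex x n, hex_mono hn, disjoint_left.2 fun y hy hy' => hWF hy' (hx hy), hroom⟩
  have a1 : Away W O x x R := ⟨cO, disjoint_left.2 fun y hy hy' => hWF hy' (hO hy),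
    hOR.mono_right (comp_subset.trans sdiff_subset)⟩
  have a2 : Away W (Fᶜ \ W) x x R := ⟨cW', disjoint_sdiff_left,
    disjoint_left.2 fun y hy hy' => hy.1 (hroom hy')⟩
  have hm := hC F S x N a hF hN (fun h => let ⟨y, hy⟩ := hne; hWF hy.1 (h hy.2)) ha'
  have ht := lbv_tot hc hN ha'
  have key : ∀ k : ℤ, (k = 1 ∧ W ⊆ S ∧ Fᶜ \ S ⊆ Fᶜ \ W ∨ k = 0 ∧ Disjoint W S ∧ Fᶜ ∩ S ⊆ Fᶜ \ W) →
      |Ex (dob F S) fun H => (lin a H - k * tot a) * G H| ≤ ε * N ^ 2 := fun k hk => by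
    refine (hM F S W _ O _ x x N R k a G hR' hR a1 a2 hk hG.1 hG.2
      fun y hy _ h => absurd (ha.2 y hy) h).trans ?_
    refine (mul_le_mul_of_nonneg_left (lbv_sq hm ?_)
      (by positivity)).trans_eq (by field_simp)
    rcases hk with ⟨rfl, -⟩ | ⟨rfl, -⟩
    · simpa using ht
    · simp
  rcases hW with ⟨rfl, rfl⟩ | ⟨rfl, rfl⟩
  · simpa only [Int.cast_one, tot, Wick.tot] using key 1
      (Or.inl ⟨rfl, inter_subset_right, fun y hy => ⟨hy.1, fun h => hy.2 h.2⟩⟩)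
  · simpa only [Int.cast_zero, tot, Wick.tot] using key 0
      (Or.inr ⟨rfl, disjoint_sdiff_left, fun y hy => ⟨hy.1, fun h => h.2 hy.2⟩⟩)

end Vale.Agent.P153.K2
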