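import Vale.Agent.P153.K2.Main
import Vale.Agent.P153.K2.Lbv
import Vale.Agent.P153.App.All

/-! P153, module K2: the outputs. -/

namespace Vale.Agent.P153.K2

theorem k2le_all (hb : Wick.L_mb) : K2le := k2le_of App.a1_all App.push_all App.mix_all hb

theorem k2ne_all (hb : Wick.L_mb) : K2ne := k2ne_of App.a1_all App.push_all App.mix_all hb

theorem bvr_all (hb : Wick.L_mb) : BVR := bvr_of App.a1_all App.push_all App.mix_all hb

theorem l_bv_all (hb : Wick.L_mb) : Wick.L_bv := l_bv (bvr_all hb) hb s_card

end Vale.Agent.P153.K2
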