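import Vale.Agent.P153.K2.All
import Vale.Agent.P153.K2.RArm
import Vale.Agent.P153.K2.RCell
import Vale.Agent.P153.K2.RPar
import Vale.Agent.P153.K2.RK4

/-! P153, module K2: crossings are joined to the boundary. -/

namespace Vale.Agent.P153.K2

theorem k4le_of (ha : A1) (hp : Push) (hm : Mix) (hb : MB) : K4le :=
  k4le (s_arm (s_mixw (mixp_all hm) s_nu)) s_c2a s_c2b (s_geo s_cobd)
    (s_iter (one_all ha hp hm hb) (scr_all hm) s_cell low_all)

theorem k4le_all (hb : Wick.L_mb) : K4le := k4le_of App.a1_all App.push_all App.mix_all hb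

theorem k4ge_all (hb : Wick.L_mb) : K4ge := k4ge (k4le_all hb)

end Vale.Agent.P153.K2
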